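import Vale.Agent.P287.Forms

/-!
Springer's theorem: an anisotropic quadratic form stays anisotropic over extensions of odd degree.
-/

namespace Vale.Agent.P287.H139

open Polynomial Vale.Agent.P287

section poly

variable {K : Type*} [Field K] {n : ℕ}

/-- the polynomial form: one step -/
lemma springer_step (Q : Matrix (Fin n) (Fin n) K) (han : ∀ v : Fin n → K, qf Q v = 0 → v = 0)
    (d : ℕ) (hd : Odd d)
    (IH : ∀ p : K[X], p.natDegree < d → Odd p.natDegree → ∀ g : Fin n → K[X], p ∣ qf Q g →
      ∃ r : K[X], Irreducible r ∧ r ∣ p ∧ ∀ i, r ∣ g i)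
    (p : K[X]) (hp : p.natDegree = d) :
    ∀ m : ℕ, m < d → ∀ g : Fin n → K[X], (∀ i, (g i).natDegree ≤ m) → p ∣ qf Q g →
      ∃ r : K[X], Irreducible r ∧ r ∣ p ∧ ∀ i, r ∣ g i := by
  have hd0 : 0 < d := hd.pos
  have hp0 : p ≠ 0 := by
    rintro rfl
    rw [natDegree_zero] at hp
    omega
  have hpu : ¬ IsUnit p := by
    intro h
    rw [natDegree_eq_zero_of_isUnit h] at hp
    omega
  intro m
  induction m using Nat.strong_induction_on with
  | _ m ih =>
  intro hmd g hg hdvd
  by_cases ha : ∀ i, (g i).coeff m = 0
  · rcases Nat.eq_zero_or_pos m with hm | hm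
    · subst hm
      obtain ⟨r, hr, hrp⟩ := WfDvdMonoid.exists_irreducible_factor hpu hp0
      refine ⟨r, hr, hrp, fun i => ?_⟩
      rw [eq_C_of_natDegree_le_zero (hg i), ha i, C_0]
      exact dvd_zero _
    · refine ih (m - 1) (by omega) (by omega) g (fun i => ?_) hdvd
      have h1 := hg i
      by_contra hcon
      have h2 : (g i).natDegree = m := by omega
      have h3 : (g i).leadingCoeff = 0 := by
        rw [leadingCoeff, h2, ha i]
      rw [leadingCoeff_eq_zero] at h3
      rw [h3, natDegree_zero] at h2
      omega
  · have hcoeff : (qf Q g).coeff (2 * m) = qf Q (fun i => (g i).coeff m) := by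
      simp only [qf, finsetSum_coeff, algebraMap_eq, coeff_C_mul, Algebra.algebraMap_self,
        RingHom.id_apply]
      refine Finset.sum_congr rfl fun i _ => Finset.sum_congr rfl fun j _ => ?_
      congr 1
      rw [two_mul, coeff_mul_add_eq_of_natDegree_le (hg i) (hg j)]
    have hne : (qf Q g).coeff (2 * m) ≠ 0 := by
      rw [hcoeff]
      intro h0
      exact ha fun i => congrFun (han _ h0) i
    have hdeg : (qf Q g).natDegree = 2 * m := by
      apply le_antisymm
      · refine natDegree_sum_le_of_forall_le _ _ fun i _ => natDegree_sum_le_of_forall_le _ _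
          fun j _ => ?_
        rw [algebraMap_eq]
        refine (natDegree_C_mul_le _ _).trans (natDegree_mul_le.trans ?_)
        have := hg i
        have := hg j
        omega
      · exact le_natDegree_of_ne_zero hne
    have hq0 : qf Q g ≠ 0 := fun h => hne (by rw [h, coeff_zero])
    obtain ⟨h, hh⟩ := hdvd
    have hh0 : h ≠ 0 := by
      rintro rfl
      rw [mul_zero] at hh
      exact hq0 hh
    have hhd : 2 * m = d + h.natDegree := by
      rw [← hdeg, hh, natDegree_mul hp0 hh0, hp]
    have hhodd : Odd h.natDegree := by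
      rcases Nat.even_or_odd h.natDegree with he | ho
      · exfalso
        have h1 := hd.add_even he
        rw [← hhd] at h1
        exact (Nat.not_odd_iff_even.mpr (even_two_mul m)) h1
      · exact ho
    obtain ⟨r, hr, hrh, hrg⟩ := IH h (by omega) hhodd g (by rw [hh]; exact dvd_mul_left _ _)
    by_cases hrp : r ∣ p
    · exact ⟨r, hr, hrp, hrg⟩
    · choose g' hg' using hrg
      have hgg : g = r • g' := by
        funext i
        rw [hg' i, Pi.smul_apply, smul_eq_mul]
      have hqg : qf Q g = r ^ 2 * qf Q g' := by
        rw [hgg, qf_smul]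
      have hcop : IsCoprime p (r ^ 2) := by
        refine IsCoprime.pow_right ?_
        exact ((EuclideanDomain.dvd_or_coprime r p hr).resolve_left hrp).symm
      have hdvd' : p ∣ qf Q g' := by
        refine hcop.dvd_of_dvd_mul_left ?_
        rw [← hqg, hh]
        exact dvd_mul_right _ _
      have hrd : 0 < r.natDegree := hr.natDegree_pos
      obtain ⟨s, hs, hsp, hsg⟩ := ih (m - 1) (by
        obtain ⟨i, hi⟩ := not_forall.mp ha
        have h1 : g i ≠ 0 := fun h0 => hi (by rw [h0, coeff_zero])
        have h2 : r.natDegree ≤ (g i).natDegree := natDegree_le_of_dvd (by rw [hg' i]; exact dvd_mul_right _ _) h1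
        have := hg i
        omega) (by omega) g' (fun i => by
          by_cases hi : g' i = 0
          · rw [hi, natDegree_zero]
            exact Nat.zero_le _
          · have h1 := hg i
            rw [hg' i, natDegree_mul hr.ne_zero hi] at h1
            omega) hdvd'
      refine ⟨s, hs, hsp, fun i => ?_⟩
      rw [hg' i]
      exact dvd_mul_of_dvd_right (hsg i) _

/-- **Springer's theorem, polynomial form.** If `Q` is anisotropic over `K` and a polynomial `p` of
odd degree divides `Q(g)`, then `p` and the coordinates of `g` have a common irreducible factor. -/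
theorem springer_poly (Q : Matrix (Fin n) (Fin n) K) (han : ∀ v : Fin n → K, qf Q v = 0 → v = 0)
    (p : K[X]) (hp : Odd p.natDegree) (g : Fin n → K[X]) (h : p ∣ qf Q g) :
    ∃ r : K[X], Irreducible r ∧ r ∣ p ∧ ∀ i, r ∣ g i := by
  obtain ⟨d, hd⟩ : ∃ d, p.natDegree = d := ⟨_, rfl⟩
  induction d using Nat.strong_induction_on generalizing p g with
  | _ d ih =>
  have hd0 : 0 < d := hd ▸ hp.pos
  have hp0 : p ≠ 0 := by
    rintro rfl
    rw [natDegree_zero] at hd
    omega
  have h1 : ∀ i, ((fun i => g i % p) i).natDegree ≤ d - 1 := by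
    intro i
    have := natDegree_mod_lt (g i) (q := p) (by omega)
    simp only
    omega
  have h2 : p ∣ qf Q (fun i => g i % p) := by
    have h3 : (fun i => g i % p) = g + p • (fun i => - (g i / p)) := by
      funext i
      have := EuclideanDomain.div_add_mod (g i) p
      simp only [Pi.add_apply, Pi.smul_apply, smul_eq_mul]
      linear_combination this
    rw [h3, qf_add, qf_smul, pf_smul_right]
    refine dvd_add (dvd_add h ?_) (dvd_mul_right _ _)
    rw [pow_two, mul_assoc]
    exact dvd_mul_right _ _
  obtain ⟨r, hr, hrp, hrg⟩ := springer_step Q han d (hd ▸ hp) (fun p' hp'd hp'o g' hg' =>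
    ih p'.natDegree hp'd p' hp'o g' hg' rfl) p hd (d - 1) (by omega) _ h1 h2
  refine ⟨r, hr, hrp, fun i => ?_⟩
  have := EuclideanDomain.div_add_mod (g i) p
  rw [← this]
  exact dvd_add (dvd_mul_of_dvd_left hrp _) (hrg i)

end poly

section field

variable {K E : Type*} [Field K] [Field E] [Algebra K E] {n : ℕ}

/-- **Springer's theorem.** A quadratic form over a field which is isotropic over a finite
separable extension of odd degree is isotropic. -/
theorem springer [FiniteDimensional K E] [Algebra.IsSeparable K E]
    (hodd : Odd (Module.finrank K E)) (Q : Matrix (Fin n) (Fin n) K) (w : Fin n → E) (hw : w ≠ 0)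
    (h : qf Q w = 0) : ∃ v : Fin n → K, v ≠ 0 ∧ qf Q v = 0 := by
  by_contra hcon
  push Not at hcon
  have han : ∀ v : Fin n → K, qf Q v = 0 → v = 0 := by
    intro v hv
    by_contra hv0
    exact hcon v hv0 hv
  let pb := Field.powerBasisOfFiniteOfSeparable K E
  have hg : ∀ i, ∃ g : K[X], w i = aeval pb.gen g := fun i => by
    obtain ⟨g, -, hg⟩ := pb.exists_eq_aeval (w i)
    exact ⟨g, hg⟩
  choose g hg using hg
  have hirr : Irreducible (minpoly K pb.gen) := minpoly.irreducible pb.isIntegral_gen
  have hdeg : (minpoly K pb.gen).natDegree = Module.finrank K E := by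
    rw [pb.natDegree_minpoly, ← pb.finrank]
  have hq : qf Q w = aeval pb.gen (qf Q g) := by
    rw [map_qf]
    congr 1
    funext i
    exact hg i
  obtain ⟨r, hr, hrp, hrg⟩ := springer_poly Q han (minpoly K pb.gen) (by rw [hdeg]; exact hodd) g
    (minpoly.dvd K pb.gen (by rw [← hq, h]))
  have hass := (hr.dvd_irreducible_iff_associated hirr).mp hrp
  apply hw
  funext i
  rw [hg i]
  obtain ⟨s, hs⟩ := hass.symm.dvd.trans (hrg i)
  rw [hs, map_mul, minpoly.aeval, zero_mul]
  rfl

end field

section algebra

variable {K B : Type*} [Field K] [CommRing B] [Algebra K B] {n : ℕ}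

/-- A finite-dimensional commutative algebra of odd dimension has a residue field of odd degree. -/
theorem exists_maximal_odd [FiniteDimensional K B] (hodd : Odd (Module.finrank K B)) :
    ∃ m : Ideal B, m.IsMaximal ∧ Odd (Module.finrank K (B ⧸ m)) := by
  by_contra hcon
  push Not at hcon
  have hart : IsArtinianRing B := IsArtinianRing.of_finite K B
  have hnoe : IsNoetherianRing B := IsNoetherianRing.of_finite K B
  have key : ∀ (M : Type _) [AddCommGroup M] [Module B M] [Module.Finite B M],
      ∀ [Module K M] [IsScalarTower K B M], Even (Module.finrank K M) := by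
    intro M _ _ _
    refine IsNoetherianRing.induction_on_isQuotientEquivQuotientPrime B (M := M) inferInstance
      (motive := fun N _ _ _ => ∀ [Module K N] [IsScalarTower K B N], Even (Module.finrank K N))
      ?_ ?_ ?_
    · intro N _ _ _ _ _ _
      rw [Module.finrank_zero_of_subsingleton]
      exact Even.zero
    · intro N _ _ _ P e _ _
      have hP : P.asIdeal.IsMaximal := inferInstance
      have h1 := hcon P.asIdeal hP
      rw [Nat.not_odd_iff_even] at h1
      have e' : N ≃ₗ[K] (B ⧸ P.asIdeal) := e.restrictScalars K
      rw [e'.finrank_eq]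
      exact h1
    · intro N₁ _ _ _ N₂ _ _ _ N₃ _ _ _ f g hf hg hfg h1 h3 _ _
      let _ : Module K N₁ := Module.compHom N₁ (algebraMap K B)
      have : IsScalarTower K B N₁ := IsScalarTower.of_algebraMap_smul fun _ _ => rfl
      let _ : Module K N₃ := Module.compHom N₃ (algebraMap K B)
      have : IsScalarTower K B N₃ := IsScalarTower.of_algebraMap_smul fun _ _ => rfl
      have hN2 : FiniteDimensional K N₂ := Module.Finite.trans B N₂
      have hN1 : FiniteDimensional K N₁ := Module.Finite.trans B N₁
      have hN3 : FiniteDimensional K N₃ := Module.Finite.trans B N₃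
      have h2 := (g.restrictScalars K).finrank_range_add_finrank_ker
      have h4 : Module.finrank K (LinearMap.range (g.restrictScalars K)) = Module.finrank K N₃ := by
        have h7 : LinearMap.range (g.restrictScalars K) = ⊤ := LinearMap.range_eq_top.mpr hg
        rw [h7]
        exact finrank_top K N₃
      have h5 : Module.finrank K (LinearMap.ker (g.restrictScalars K)) = Module.finrank K N₁ := by
        have h6 : LinearMap.ker (g.restrictScalars K) = LinearMap.range (f.restrictScalars K) := by
          ext x
          exact (hfg x)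
        rw [h6]
        exact LinearMap.finrank_range_of_inj hf
      rw [← h2, h4, h5]
      exact h3.add h1
  have := key B
  exact (Nat.not_odd_iff_even.mpr this) hodd

/-- **Springer's theorem** for finite-dimensional commutative algebras of odd dimension. -/
theorem springer_algebra [CharZero K] [FiniteDimensional K B] (hodd : Odd (Module.finrank K B))
    (Q : Matrix (Fin n) (Fin n) K) (w : Fin n → B) (hw : Ideal.span (Set.range w) = ⊤)
    (h : qf Q w = 0) : ∃ v : Fin n → K, v ≠ 0 ∧ qf Q v = 0 := by
  obtain ⟨m, hm, hmo⟩ := exists_maximal_odd (B := B) hodd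
  let _ : Field (B ⧸ m) := Ideal.Quotient.field m
  have hsep : Algebra.IsSeparable K (B ⧸ m) := inferInstance
  refine springer (E := B ⧸ m) hmo Q (fun i => Ideal.Quotient.mkₐ K m (w i)) ?_ ?_
  · intro h0
    apply hm.ne_top
    rw [eq_top_iff, ← hw, Ideal.span_le]
    rintro _ ⟨i, rfl⟩
    have := congrFun h0 i
    exact Ideal.Quotient.eq_zero_iff_mem.mp this
  · rw [← map_qf, h, map_zero]

end algebra

end Vale.Agent.P287.H139
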