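import Vale.Agent.P287.Rational

/-!
A variant of `rational_of_fourGenerated` which provides the transcendence degree.
-/

namespace Vale.Agent.P287.H139

open MvPolynomial Vale.Agent.P287

/-- The function field of the cubic is the function field of a quadric surface over `ℂ(s₀, s₁)`;
rationality follows if this field is generated by four elements. -/
theorem rational_of_fourGenerated_trdeg (B : Fin 3 → Matrix (Fin 6) (Fin 6) ℂ)
    (hp : Prime (chart (cubic B)))
    (nd : ∀ v : Fin 4 → RatK, (∀ w, pf (qmat B) v w = 0) → v = 0)
    (key : ∀ (E : Type) [Field E] [Algebra ℂ E] [Algebra RatK E] [IsScalarTower ℂ RatK E]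
      (η : Fin 4 → E), QuadricPoint RatK E tvec (qmat B) η →
      (∀ G : MvPolynomial (Fin 3) RatK, aeval (fun i : Fin 3 => η i.succ) G = 0 →
        fK (qmat B) ∣ G) → (4 : Cardinal) ≤ Algebra.trdeg ℂ E → FourGenerated E) :
    Nonempty (FractionRing (MvPolynomial (Fin 5) ℂ ⧸ Ideal.span {chart (cubic B)}) ≃ₐ[ℂ]
      FractionRing (MvPolynomial (Fin 4) ℂ)) := by
  classical
  set f := chart (cubic B) with hf
  have hprime : (Ideal.span {f}).IsPrime := (Ideal.span_singleton_prime hp.ne_zero).mpr hp
  have : IsDomain (MvPolynomial (Fin 5) ℂ ⧸ Ideal.span {f}) := Ideal.Quotient.isDomain _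
  set E := FractionRing (MvPolynomial (Fin 5) ℂ ⧸ Ideal.span {f}) with hE
  -- injectivity of the polynomial ring in two variables
  set φ : MvPolynomial (Fin 2) ℂ →ₐ[ℂ] E := (pr f).comp ren with hφ
  have h2 := two_le_totalDegree_fK (qmat B) nd
  have hφi : Function.Injective φ := by
    rw [injective_iff_map_eq_zero]
    intro n hn
    have h3 : pr f (ren n) = 0 := hn
    rw [pr_eq_zero_iff] at h3
    have h4 : rho f ∣ rho (ren n) := map_dvd rho h3
    rw [hf, rho_chart, rho_ren] at h4
    by_contra hn0
    obtain ⟨g, hg⟩ := h4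
    have hne : C (algebraMap (MvPolynomial (Fin 2) ℂ) RatK n) ≠ (0 : MvPolynomial (Fin 3) RatK) := by
      intro h0
      rw [C_eq_zero] at h0
      exact hn0 ((map_eq_zero_iff _ (IsFractionRing.injective _ _)).mp h0)
    have hg0 : g ≠ 0 := by
      rintro rfl
      rw [mul_zero] at hg
      exact hne hg
    have hf0 : fK (qmat B) ≠ 0 := by
      intro h0
      rw [h0, zero_mul] at hg
      exact hne hg
    have h5 := congrArg totalDegree hg
    rw [totalDegree_mul_of_isDomain hf0 hg0, totalDegree_C] at h5
    omega
  let ι : RatK →ₐ[ℂ] E := IsFractionRing.liftAlgHom (K := RatK) hφi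
  have hι : ∀ n, ι (algebraMap (MvPolynomial (Fin 2) ℂ) RatK n) = φ n := by
    intro n
    exact IsFractionRing.lift_algebraMap hφi n
  let _ : Algebra RatK E := ι.toRingHom.toAlgebra
  have hιa : ∀ c : RatK, algebraMap RatK E c = ι c := fun c => rfl
  have : IsScalarTower ℂ RatK E := IsScalarTower.of_algebraMap_eq fun c => by
    rw [hιa]
    exact (ι.commutes c).symm
  -- evaluation of polynomials over `K`
  set η : Fin 4 → E := etav f with hη
  let ev : MvPolynomial (Fin 3) RatK →ₐ[RatK] E := aeval (fun i : Fin 3 => η i.succ)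
  have hφX : ∀ i, φ (X i) = pr f (X (Fin.castAdd 3 i)) := by
    intro i
    fin_cases i <;> simp [hφ, ren]
  have ht1 : ι (tvec 1) = pr f (X 0) := by
    have : tvec 1 = algebraMap (MvPolynomial (Fin 2) ℂ) RatK (X 0) := rfl
    rw [this, hι, hφX]
    rfl
  have ht2 : ι (tvec 2) = pr f (X 1) := by
    have : tvec 2 = algebraMap (MvPolynomial (Fin 2) ℂ) RatK (X 1) := rfl
    rw [this, hι, hφX]
    rfl
  have hevrho : ∀ g, ev (rho g) = pr f g := by
    have : (ev.restrictScalars ℂ).comp rho = pr f := by
      apply MvPolynomial.algHom_ext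
      intro i
      fin_cases i
      · simp [rho, ev, hιa, ht1]
      · simp [rho, ev, hιa, ht2]
      · simp [rho, ev, hη, etav]
      · simp [rho, ev, hη, etav]
      · simp [rho, ev, hη, etav]
    intro g
    exact DFunLike.congr_fun this g
  -- membership
  have hC : ∀ G : MvPolynomial (Fin 3) RatK, aeval (fun i : Fin 3 => η i.succ) G = 0 →
      fK (qmat B) ∣ G := by
    intro G hG
    obtain ⟨g, d, hd, hgd⟩ := exists_rho G
    have h3 : pr f g = 0 := by
      rw [← hevrho, hgd, map_mul]
      have : ev G = 0 := hG
      rw [this, mul_zero]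
    rw [pr_eq_zero_iff] at h3
    have h4 : rho f ∣ rho g := map_dvd rho h3
    rw [hf, rho_chart, hgd] at h4
    have hu : IsUnit (C (algebraMap (MvPolynomial (Fin 2) ℂ) RatK d) : MvPolynomial (Fin 3) RatK) := by
      refine (IsUnit.mk0 _ ?_).map C
      intro h0
      exact hd ((map_eq_zero_iff _ (IsFractionRing.injective _ _)).mp h0)
    exact (hu.dvd_mul_left).mp h4
  have hKmem : ∀ F : IntermediateField ℂ E, (∀ i, algebraMap RatK E (tvec i) ∈ F) →
      ∀ c : RatK, algebraMap RatK E c ∈ F := by
    intro F hF c
    obtain ⟨n, d, hd, rfl⟩ := IsFractionRing.div_surjective (A := MvPolynomial (Fin 2) ℂ) c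
    have hmem : ∀ n : MvPolynomial (Fin 2) ℂ, φ n ∈ F := by
      intro n
      induction n using MvPolynomial.induction_on with
      | C a =>
        have : φ (C a) = algebraMap ℂ E a := by
          rw [← MvPolynomial.algebraMap_eq]
          exact φ.commutes a
        rw [this]
        exact F.algebraMap_mem a
      | add p q hp hq => rw [map_add]; exact F.add_mem hp hq
      | mul_X p i hp =>
        rw [map_mul]
        refine F.mul_mem hp ?_
        rw [hφX]
        fin_cases i
        · have := hF 1
          rw [hιa, ht1] at this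
          exact this
        · have := hF 2
          rw [hιa, ht2] at this
          exact this
    rw [hιa, map_div₀, hι, hι]
    exact F.div_mem (hmem n) (hmem d)
  have hEmem : ∀ F : IntermediateField ℂ E, (∀ c : RatK, algebraMap RatK E c ∈ F) →
      (∀ i, η i ∈ F) → F = ⊤ := by
    intro F hF1 hF2
    rw [eq_top_iff]
    intro e _
    have hmem : ∀ g : MvPolynomial (Fin 5) ℂ, pr f g ∈ F := by
      intro g
      induction g using MvPolynomial.induction_on with
      | C a =>
        have : pr f (C a) = algebraMap ℂ E a := by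
          rw [← MvPolynomial.algebraMap_eq]
          exact (pr f).commutes a
        rw [this]
        exact F.algebraMap_mem a
      | add p q hp hq => rw [map_add]; exact F.add_mem hp hq
      | mul_X p i hp =>
        rw [map_mul]
        refine F.mul_mem hp ?_
        fin_cases i
        · have := hF1 (tvec 1)
          rw [hιa, ht1] at this
          exact this
        · have := hF1 (tvec 2)
          rw [hιa, ht2] at this
          exact this
        · exact hF2 1
        · exact hF2 2
        · exact hF2 3
    obtain ⟨a, b, hb, rfl⟩ := IsFractionRing.div_surjective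
      (A := MvPolynomial (Fin 5) ℂ ⧸ Ideal.span {f}) e
    obtain ⟨a, rfl⟩ := Ideal.Quotient.mk_surjective a
    obtain ⟨b, rfl⟩ := Ideal.Quotient.mk_surjective b
    exact F.div_mem (hmem a) (hmem b)
  have hLI : ∀ c : Fin 4 → RatK, ∑ i, algebraMap RatK E (c i) * η i = 0 → c = 0 := by
    intro c hc
    set G : MvPolynomial (Fin 3) RatK := C (c 0) + ∑ i : Fin 3, C (c i.succ) * X i with hG
    have hG0 : aeval (fun i : Fin 3 => η i.succ) G = 0 := by
      rw [hG, map_add, map_sum, ← hc, Fin.sum_univ_succ (n := 3)]
      have : η 0 = 1 := rfl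
      simp [this]
    obtain ⟨g, hg⟩ := hC G hG0
    have hGz : G = 0 := by
      by_contra hne
      have hg0 : g ≠ 0 := by
        rintro rfl
        rw [mul_zero] at hg
        exact hne hg
      have hf0 : fK (qmat B) ≠ 0 := by
        intro h0
        rw [h0, zero_mul] at hg
        exact hne hg
      have h5 := congrArg totalDegree hg
      rw [totalDegree_mul_of_isDomain hf0 hg0] at h5
      have h6 : G.totalDegree ≤ 1 := by
        refine (totalDegree_add _ _).trans (max_le (by simp) ?_)
        refine totalDegree_finsetSum_le fun i _ => ?_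
        refine (totalDegree_mul _ _).trans ?_
        simp
      omega
    have e0 := congrArg (aeval (R := RatK) (0 : Fin 3 → RatK)) hGz
    simp [hG] at e0
    funext i
    refine Fin.cases ?_ (fun i => ?_) i
    · exact e0
    · have e1 := congrArg (aeval (R := RatK) (Pi.single i 1 : Fin 3 → RatK)) hGz
      rw [hG, map_add, map_sum, Finset.sum_eq_single i] at e1
      · simpa [e0] using e1
      · intro j _ hj
        simp [Pi.single_eq_of_ne hj]
      · simp
  have hq : qf (qmat B) η = 0 := by
    have h3 : aeval (fun i : Fin 3 => η i.succ) (fK (qmat B)) = 0 := by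
      have h4 : ev (rho f) = 0 := by
        rw [hevrho, pr_eq_zero_iff]
      have h5 : rho f = fK (qmat B) := by rw [hf, rho_chart]
      exact (congrArg ev h5).symm.trans h4
    rw [aeval_fK] at h3
    have : (Fin.cons 1 (fun i : Fin 3 => η i.succ) : Fin 4 → E) = η := by
      funext i
      refine Fin.cases ?_ (fun i => ?_) i
      · rfl
      · simp
    rwa [this] at h3
  have H : QuadricPoint RatK E tvec (qmat B) η :=
    { t0 := rfl
      hK := hKmem
      hE := hEmem
      nd := nd
      η0 := rfl
      LI := hLI
      hq := hq }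
  obtain ⟨κ, hκ, hcard, z, hz⟩ := key E η H hC (four_le_trdeg hp)
  exact equiv_of_generators (n := 4) hcard z hz (four_le_trdeg hp)

end Vale.Agent.P287.H139
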