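import Vale.Agent.P287.Theta.LinChange

/-!
Forms of bidegree `(2, 2)` on `ℙ² × ℙ²`: the two associated symmetric `3 × 3` matrices of quadratic
forms. If the determinant of the first one is a smooth sextic, the determinant of the second one is
not zero.
-/

namespace Vale.Agent.P287.H139

open MvPolynomial Matrix Vale.Agent.P287 Vale.Agent.P287.Theta

/-- The symmetric tensors of bidegree `(2, 2)`. -/
structure IsBisymm (c : Fin 3 → Fin 3 → Fin 3 → Fin 3 → ℂ) : Prop where
  symm1 : ∀ a b i j, c a b i j = c b a i j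
  symm2 : ∀ a b i j, c a b i j = c a b j i

/-- The first matrix: `∑ c a b i j s_i s_j`. -/
noncomputable def matA {A : Type*} [CommRing A] [Algebra ℂ A]
    (c : Fin 3 → Fin 3 → Fin 3 → Fin 3 → ℂ) (s : Fin 3 → A) : Matrix (Fin 3) (Fin 3) A :=
  Matrix.of fun a b => ∑ i, ∑ j, algebraMap ℂ A (c a b i j) * (s i * s j)

/-- The second matrix: `∑ c a b i j x_a x_b`. -/
noncomputable def matB {A : Type*} [CommRing A] [Algebra ℂ A]
    (c : Fin 3 → Fin 3 → Fin 3 → Fin 3 → ℂ) (x : Fin 3 → A) : Matrix (Fin 3) (Fin 3) A :=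
  Matrix.of fun i j => ∑ a, ∑ b, algebraMap ℂ A (c a b i j) * (x a * x b)

section

variable {A : Type*} [CommRing A] [Algebra ℂ A] {c : Fin 3 → Fin 3 → Fin 3 → Fin 3 → ℂ}

lemma matA_symm (hc : IsBisymm c) (s : Fin 3 → A) : (matA c s).IsSymm := by
  ext a b
  simp only [matA, Matrix.transpose_apply, Matrix.of_apply]
  refine Finset.sum_congr rfl fun i _ => Finset.sum_congr rfl fun j _ => ?_
  rw [hc.symm1]

lemma matB_symm (hc : IsBisymm c) (x : Fin 3 → A) : (matB c x).IsSymm := by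
  ext i j
  simp only [matB, Matrix.transpose_apply, Matrix.of_apply]
  refine Finset.sum_congr rfl fun a _ => Finset.sum_congr rfl fun b _ => ?_
  rw [hc.symm2]

lemma matA_matB (c : Fin 3 → Fin 3 → Fin 3 → Fin 3 → ℂ) (s x : Fin 3 → A) :
    x ⬝ᵥ matA c s *ᵥ x = s ⬝ᵥ matB c x *ᵥ s := by
  simp only [matA, matB, dotProduct, Matrix.mulVec, Matrix.of_apply, Fin.sum_univ_three]
  ring

lemma map_matA {A' : Type*} [CommRing A'] [Algebra ℂ A'] (φ : A →ₐ[ℂ] A')
    (c : Fin 3 → Fin 3 → Fin 3 → Fin 3 → ℂ) (s : Fin 3 → A) :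
    (matA c s).map φ = matA c (fun i => φ (s i)) := by
  ext a b
  simp [matA, map_sum]

lemma map_matB {A' : Type*} [CommRing A'] [Algebra ℂ A'] (φ : A →ₐ[ℂ] A')
    (c : Fin 3 → Fin 3 → Fin 3 → Fin 3 → ℂ) (s : Fin 3 → A) :
    (matB c s).map φ = matB c (fun i => φ (s i)) := by
  ext a b
  simp [matB, map_sum]

end

lemma adj_mul_apply {R : Type*} [CommRing R] (A : Matrix (Fin 3) (Fin 3) R) (x : Fin 3 → R)
    (h : A *ᵥ x = 0) (a b d : Fin 3) : A.adjugate a b * x d = A.adjugate d b * x a := by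
  have h0 : A 0 0 * x 0 + A 0 1 * x 1 + A 0 2 * x 2 = 0 := by
    have := congrFun h 0
    simpa [Matrix.mulVec, dotProduct, Fin.sum_univ_three] using this
  have h1 : A 1 0 * x 0 + A 1 1 * x 1 + A 1 2 * x 2 = 0 := by
    have := congrFun h 1
    simpa [Matrix.mulVec, dotProduct, Fin.sum_univ_three] using this
  have h2 : A 2 0 * x 0 + A 2 1 * x 1 + A 2 2 * x 2 = 0 := by
    have := congrFun h 2
    simpa [Matrix.mulVec, dotProduct, Fin.sum_univ_three] using this
  rw [Matrix.adjugate_fin_three]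
  fin_cases a <;> fin_cases b <;> fin_cases d <;> simp <;> grind

/-- derivative of a determinant at a singular symmetric matrix with kernel vector `x` -/
lemma trace_adj_mul {R : Type*} [CommRing R] (A D : Matrix (Fin 3) (Fin 3) R) (hA : A.IsSymm)
    (x : Fin 3 → R) (h : A *ᵥ x = 0) (hD : x ⬝ᵥ D *ᵥ x = 0) (a b : Fin 3) :
    (A.adjugate * D).trace * (x a * x b) = 0 := by
  have hs : ∀ i j, A.adjugate i j = A.adjugate j i := by
    intro i j
    have : A.adjugateᵀ = A.adjugate := by rw [Matrix.adjugate_transpose, hA.eq]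
    exact (congrFun (congrFun this j) i)
  have h1 : ∀ i j, A.adjugate i j * (x a * x b) = A.adjugate a b * (x i * x j) := by
    intro i j
    calc A.adjugate i j * (x a * x b) = (A.adjugate i j * x a) * x b := by ring
      _ = (A.adjugate a j * x i) * x b := by rw [adj_mul_apply A x h]
      _ = (A.adjugate j a * x b) * x i := by rw [hs a j]; ring
      _ = (A.adjugate b a * x j) * x i := by rw [adj_mul_apply A x h]
      _ = A.adjugate a b * (x i * x j) := by rw [hs b a]; ring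
  have h2 : (A.adjugate * D).trace * (x a * x b) =
      A.adjugate a b * ∑ i, ∑ j, x i * x j * D j i := by
    rw [Matrix.trace, Finset.sum_mul, Finset.mul_sum]
    refine Finset.sum_congr rfl fun i _ => ?_
    rw [Matrix.diag_apply, Matrix.mul_apply, Finset.sum_mul, Finset.mul_sum]
    refine Finset.sum_congr rfl fun j _ => ?_
    linear_combination D j i * h1 i j
  have h3 : ∑ i, ∑ j, x i * x j * D j i = x ⬝ᵥ D *ᵥ x := by
    simp only [dotProduct, Matrix.mulVec, Fin.sum_univ_three]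
    ring
  rw [h2, h3, hD, mul_zero]

/-- derivative of the determinant of a `3 × 3` matrix -/
lemma derivation_det {R : Type*} [CommRing R] [Algebra ℂ R] (D : Derivation ℂ R R)
    (A : Matrix (Fin 3) (Fin 3) R) :
    D A.det = (A.adjugate * A.map D).trace := by
  rw [Matrix.det_fin_three, Matrix.adjugate_fin_three, Matrix.trace_fin_three]
  simp only [map_sub, map_add, Derivation.leibniz, smul_eq_mul, Matrix.mul_apply,
    Fin.sum_univ_three, Matrix.map_apply]
  simp
  ring

lemma derivation_quad {R : Type*} [CommRing R] [Algebra ℂ R] (D : Derivation ℂ R R)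
    (B : Matrix (Fin 3) (Fin 3) R) (hB : B.IsSymm) (σ : Fin 3 → R) :
    D (σ ⬝ᵥ B *ᵥ σ) = 2 * (∑ i, D (σ i) * (B *ᵥ σ) i) + ∑ i, ∑ j, D (B i j) * (σ i * σ j) := by
  have h10 : B 1 0 = B 0 1 := congrFun (congrFun hB 0) 1
  have h20 : B 2 0 = B 0 2 := congrFun (congrFun hB 0) 2
  have h21 : B 2 1 = B 1 2 := congrFun (congrFun hB 1) 2
  simp only [dotProduct, Matrix.mulVec, Fin.sum_univ_three, map_add, Derivation.leibniz,
    smul_eq_mul, h10, h20, h21]
  ring

lemma pderiv_mul_X (k a b : Fin 3) : pderiv k ((X a : P3) * X b) =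
    (if a = k then X b else 0) + (if b = k then X a else 0) := by
  rw [pderiv_mul, pderiv_X, pderiv_X]
  simp only [Pi.single_apply]
  split_ifs <;> simp

lemma pderiv_quad (k : Fin 3) (c : Fin 3 → Fin 3 → ℂ) (hc : ∀ a b, c a b = c b a) :
    pderiv k (∑ a, ∑ b, C (c a b) * ((X a : P3) * X b)) = 2 * ∑ b, C (c k b) * X b := by
  have h1 : ∀ a b, pderiv k (C (c a b) * ((X a : P3) * X b)) =
      (if a = k then C (c a b) * X b else 0) + (if b = k then C (c a b) * X a else 0) := by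
    intro a b
    rw [pderiv_C_mul, pderiv_mul_X]
    split_ifs <;> simp [mul_add]
  simp only [map_sum, h1, Finset.sum_add_distrib]
  rw [Finset.sum_comm]
  simp only [Finset.sum_ite_eq', Finset.mem_univ, if_true]
  rw [two_mul]
  congr 1
  refine Finset.sum_congr rfl fun b _ => ?_
  rw [hc]

lemma pderiv_matB {c : Fin 3 → Fin 3 → Fin 3 → Fin 3 → ℂ} (hc : IsBisymm c) (k i j : Fin 3) :
    pderiv k (matB c (X : Fin 3 → P3) i j) = 2 * ∑ b, C (c k b i j) * X b :=
  pderiv_quad k (fun a b => c a b i j) fun a b => hc.symm1 a b i j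

lemma pderiv_matA {c : Fin 3 → Fin 3 → Fin 3 → Fin 3 → ℂ} (hc : IsBisymm c) (k a b : Fin 3) :
    pderiv k (matA c (X : Fin 3 → P3) a b) = 2 * ∑ j, C (c a b k j) * X j :=
  pderiv_quad k (fun i j => c a b i j) fun i j => hc.symm2 a b i j

lemma matA_mulVec (c : Fin 3 → Fin 3 → Fin 3 → Fin 3 → ℂ) (σ : Fin 3 → P3) (k : Fin 3) :
    (matA c σ *ᵥ (X : Fin 3 → P3)) k =
      ∑ i, ∑ j, (∑ b, C (c k b i j) * X b) * (σ i * σ j) := by
  simp only [matA, Matrix.mulVec, dotProduct, Matrix.of_apply, algebraMap_eq,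
    Fin.sum_univ_three]
  ring

lemma matB_mulVec (c : Fin 3 → Fin 3 → Fin 3 → Fin 3 → ℂ) (σ : Fin 3 → P3) (k : Fin 3) :
    (matB c (X : Fin 3 → P3) *ᵥ σ) k =
      ∑ a, ∑ b, (∑ j, C (c a b k j) * σ j) * (X a * X b) := by
  simp only [matB, Matrix.mulVec, dotProduct, Matrix.of_apply, algebraMap_eq,
    Fin.sum_univ_three]
  ring

/-- the matrix `A(σ)` kills the vector `X` -/
lemma matA_kernel {c : Fin 3 → Fin 3 → Fin 3 → Fin 3 → ℂ} (hc : IsBisymm c) {σ : Fin 3 → P3}
    (hσ : matB c (X : Fin 3 → P3) *ᵥ σ = 0) : matA c σ *ᵥ (X : Fin 3 → P3) = 0 := by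
  funext k
  have e1 : σ ⬝ᵥ matB c (X : Fin 3 → P3) *ᵥ σ = 0 := by rw [hσ, dotProduct_zero]
  have e4 := derivation_quad (pderiv k) (matB c (X : Fin 3 → P3)) (matB_symm hc _) σ
  rw [e1, map_zero] at e4
  have e5 : (∑ i, pderiv k (σ i) * (matB c (X : Fin 3 → P3) *ᵥ σ) i) = 0 :=
    Finset.sum_eq_zero fun i _ => by rw [hσ, Pi.zero_apply, mul_zero]
  have e6 : ∑ i, ∑ j, pderiv k (matB c (X : Fin 3 → P3) i j) * (σ i * σ j) =
      2 * (matA c σ *ᵥ (X : Fin 3 → P3)) k := by
    rw [matA_mulVec, Finset.mul_sum]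
    refine Finset.sum_congr rfl fun i _ => ?_
    rw [Finset.mul_sum]
    refine Finset.sum_congr rfl fun j _ => ?_
    rw [pderiv_matB hc]
    ring
  rw [e5, mul_zero, zero_add, e6] at e4
  have h2 : (2 : P3) ≠ 0 := two_ne_zero
  exact (mul_eq_zero.mp e4.symm).resolve_left h2

/-- the gradient of the first determinant vanishes at `σ` -/
lemma grad_zero {c : Fin 3 → Fin 3 → Fin 3 → Fin 3 → ℂ} (hc : IsBisymm c) {σ : Fin 3 → P3}
    (hσ : matB c (X : Fin 3 → P3) *ᵥ σ = 0) (i : Fin 3) :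
    aeval σ (pderiv i (matA c (X : Fin 3 → P3)).det) = 0 := by
  have h1 := matA_kernel hc hσ
  have e2 : aeval σ (pderiv i (matA c (X : Fin 3 → P3)).det) =
      ((matA c σ).adjugate * ((matA c (X : Fin 3 → P3)).map (pderiv i)).map
        (aeval σ : P3 →ₐ[ℂ] P3)).trace := by
    rw [derivation_det (pderiv i) (matA c (X : Fin 3 → P3))]
    have e3 : (matA c σ).adjugate =
        ((matA c (X : Fin 3 → P3)).adjugate).map (aeval σ : P3 →ₐ[ℂ] P3) := by
      have e4 := AlgHom.map_adjugate (aeval σ : P3 →ₐ[ℂ] P3) (matA c (X : Fin 3 → P3))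
      rw [AlgHom.mapMatrix_apply, AlgHom.mapMatrix_apply, map_matA] at e4
      rw [e4]
      congr 2
      funext j
      simp
    rw [e3, ← Matrix.map_mul, Matrix.trace, Matrix.trace, map_sum]
    rfl
  have hd : ∀ a b, aeval σ (pderiv i (matA c (X : Fin 3 → P3) a b)) =
      2 * ∑ j, C (c a b i j) * σ j := by
    intro a b
    rw [pderiv_matA hc, map_mul, map_ofNat, map_sum]
    congr 1
    refine Finset.sum_congr rfl fun j _ => ?_
    rw [map_mul, aeval_X, ← algebraMap_eq, AlgHom.commutes]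
  have e5 : (X : Fin 3 → P3) ⬝ᵥ (((matA c (X : Fin 3 → P3)).map (pderiv i)).map
        (aeval σ : P3 →ₐ[ℂ] P3)) *ᵥ (X : Fin 3 → P3) = 0 := by
    have e6 : (X : Fin 3 → P3) ⬝ᵥ (((matA c (X : Fin 3 → P3)).map (pderiv i)).map
        (aeval σ : P3 →ₐ[ℂ] P3)) *ᵥ (X : Fin 3 → P3) =
        2 * (matB c (X : Fin 3 → P3) *ᵥ σ) i := by
      rw [matB_mulVec]
      simp only [dotProduct, Matrix.mulVec, Matrix.map_apply, hd, Finset.mul_sum]
      refine Finset.sum_congr rfl fun a _ => Finset.sum_congr rfl fun b _ => ?_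
      rw [Finset.sum_mul, Finset.sum_mul, Finset.mul_sum, Finset.mul_sum]
      refine Finset.sum_congr rfl fun j _ => ?_
      ring
    rw [e6, hσ, Pi.zero_apply, mul_zero]
  have e7 := trace_adj_mul (matA c σ) _ (matA_symm hc σ) _ h1 e5 0 0
  rw [← e2] at e7
  exact (mul_eq_zero.mp e7).resolve_right (mul_ne_zero (X_ne_zero 0) (X_ne_zero 0))

/-- If the first determinant is a smooth plane curve, the second determinant is not zero. -/
theorem det_matB_ne_zero {c : Fin 3 → Fin 3 → Fin 3 → Fin 3 → ℂ} (hc : IsBisymm c)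
    (hs : SmoothP (matA c (X : Fin 3 → P3)).det) : (matB c (X : Fin 3 → P3)).det ≠ 0 := by
  intro h0
  obtain ⟨σ, hσ, hσ'⟩ := Matrix.exists_mulVec_eq_zero_iff.2 h0
  obtain ⟨i, hi⟩ : ∃ i, σ i ≠ 0 := by
    by_contra h
    push Not at h
    exact hσ (funext h)
  obtain ⟨x, hx⟩ : ∃ x : Fin 3 → ℂ, eval x (σ i) ≠ 0 := by
    by_contra h
    push Not at h
    exact hi (MvPolynomial.funext fun x => by rw [h x, map_zero])
  apply hx
  have h5 : ((eval x).comp (aeval σ : P3 →ₐ[ℂ] P3).toRingHom) = eval fun i => eval x (σ i) := by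
    apply MvPolynomial.ringHom_ext
    · intro z
      simp
    · intro j
      simp
  have h3 := hs (fun i => eval x (σ i)) (fun k => by
    have h4 := congrArg (eval x) (grad_zero hc hσ' k)
    rw [map_zero] at h4
    rw [← h4]
    exact (DFunLike.congr_fun h5 _).symm)
  exact congrFun h3 i

end Vale.Agent.P287.H139
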