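import Vale.Agent.P287.H139.Rational2
import Vale.Agent.P287.H139.Springer
import Vale.Agent.P287.H139.Tensor
import Vale.Agent.P287.Theta.IsoFinal

/-!
The double cover `w² = A(s; x)` of `ℙ² × ℙ²` branched along a divisor of bidegree `(2, 2)`: if the
second quadric surface fibration has a rational point, its function field is generated by four
elements.
-/

namespace Vale.Agent.P287.H139

open MvPolynomial Matrix Vale.Agent.P287 Vale.Agent.P287.Theta

/-- The matrix of the form `s ↦ s B(1, x₁, x₂) s - w²` over `ℂ(x₁, x₂)`. -/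
noncomputable def vmat (c : Fin 3 → Fin 3 → Fin 3 → Fin 3 → ℂ) : Matrix (Fin 4) (Fin 4) RatK :=
  !![matB c tvec 0 0, matB c tvec 0 1, matB c tvec 0 2, 0;
     matB c tvec 1 0, matB c tvec 1 1, matB c tvec 1 2, 0;
     matB c tvec 2 0, matB c tvec 2 1, matB c tvec 2 2, 0;
     0, 0, 0, -1]

/-- The value of the form. -/
lemma qf_vmat (c : Fin 3 → Fin 3 → Fin 3 → Fin 3 → ℂ) {A : Type*} [CommRing A] [Algebra ℂ A]
    [Algebra RatK A] [IsScalarTower ℂ RatK A] (v : Fin 4 → A) :
    qf (vmat c) v = ![v 0, v 1, v 2] ⬝ᵥ matB c (fun i => algebraMap RatK A (tvec i)) *ᵥ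
      ![v 0, v 1, v 2] - v 3 ^ 2 := by
  have h : ∀ i j, matB c (fun i => algebraMap RatK A (tvec i)) i j =
      algebraMap RatK A (matB c tvec i j) := by
    intro i j
    have := map_matB (IsScalarTower.toAlgHom ℂ RatK A) c tvec
    exact (congrFun (congrFun this i) j).symm
  simp only [qf, Fin.sum_univ_four, dotProduct, Matrix.mulVec, Fin.sum_univ_three, h]
  simp [vmat]
  ring

lemma vmat_symm {c : Fin 3 → Fin 3 → Fin 3 → Fin 3 → ℂ} (hc : IsBisymm c) :
    (vmat c).IsSymm := by
  have h : ∀ i j, matB c tvec i j = matB c tvec j i := fun i j =>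
    congrFun (congrFun (matB_symm hc tvec) j) i
  ext i j
  fin_cases i <;> fin_cases j <;> simp [vmat, h 1 0, h 2 0, h 2 1]

lemma matB_homog (c : Fin 3 → Fin 3 → Fin 3 → Fin 3 → ℂ) (i j : Fin 3) :
    (matB c (X : Fin 3 → P3) i j).IsHomogeneous 2 := by
  simp only [matB, Matrix.of_apply, algebraMap_eq]
  refine IsHomogeneous.sum _ _ _ fun a _ => IsHomogeneous.sum _ _ _ fun b _ => ?_
  have h1 := (isHomogeneous_C (Fin 3) (c a b i j)).mul
    ((isHomogeneous_X ℂ a).mul (isHomogeneous_X ℂ b))
  simpa using h1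

lemma det_homog {n : ℕ} (M : Matrix (Fin n) (Fin n) P3) (d : ℕ)
    (h : ∀ i j, (M i j).IsHomogeneous d) : M.det.IsHomogeneous (n * d) := by
  rw [Matrix.det_apply]
  refine IsHomogeneous.sum _ _ _ fun τ _ => ?_
  have h1 : (∏ i, M (τ i) i).IsHomogeneous (∑ _i : Fin n, d) :=
    IsHomogeneous.prod _ _ _ fun i _ => h _ _
  rw [Finset.sum_const, Finset.card_univ, Fintype.card_fin, smul_eq_mul] at h1
  rcases Int.units_eq_one_or (Equiv.Perm.sign τ) with h3 | h3 <;> rw [h3]
  · simpa using h1
  · simpa using h1.neg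

lemma aeval_tvec_inj {d : ℕ} {p : P3} (hp : p.IsHomogeneous d) (h : aeval tvec p = 0) : p = 0 := by
  apply cr_inj hp
  rw [← crMap_cr] at h
  exact (map_eq_zero_iff _ crMap_injective).mp h

lemma det_matB_tvec {c : Fin 3 → Fin 3 → Fin 3 → Fin 3 → ℂ} (hc : IsBisymm c)
    (hs : SmoothP (matA c (X : Fin 3 → P3)).det) : (matB c tvec).det ≠ 0 := by
  intro h
  apply det_matB_ne_zero hc hs
  refine aeval_tvec_inj (det_homog _ 2 (matB_homog c)) ?_
  have h1 : aeval tvec (matB c (X : Fin 3 → P3)).det =
      ((matB c (X : Fin 3 → P3)).map (aeval tvec : P3 →ₐ[ℂ] RatK)).det := by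
    rw [← AlgHom.mapMatrix_apply, ← AlgHom.map_det]
  rw [h1, map_matB, ← h]
  congr 2
  funext i
  simp

lemma det_vmat (c : Fin 3 → Fin 3 → Fin 3 → Fin 3 → ℂ) :
    (vmat c).det = - (matB c tvec).det := by
  rw [Matrix.det_fin_three, Matrix.det_succ_row_zero]
  simp only [Fin.sum_univ_four, Matrix.det_fin_three]
  simp [vmat, Fin.succAbove, Matrix.submatrix]
  ring

lemma pf_symm_zero {K : Type*} [Field K] [CharZero K] {n : ℕ} {Q : Matrix (Fin n) (Fin n) K}
    (hQ : Q.IsSymm) (hd : Q.det ≠ 0) (v : Fin n → K) (h : ∀ w, pf Q v w = 0) : v = 0 := by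
  apply Matrix.eq_zero_of_mulVec_eq_zero hd
  funext i
  have h1 := h (Pi.single i 1)
  have h2 : pf Q v (Pi.single i 1) = 2 * (Q *ᵥ v) i := by
    rw [pf_comm]
    simp only [pf, Algebra.algebraMap_self, RingHom.id_apply, mul_add, Finset.sum_add_distrib,
      Matrix.mulVec, dotProduct]
    have e1 : ∑ x, ∑ y, Q x y * ((Pi.single i 1 : Fin n → K) x * v y) = ∑ y, Q i y * v y := by
      rw [Finset.sum_eq_single i]
      · refine Finset.sum_congr rfl fun y _ => ?_
        rw [Pi.single_eq_same, one_mul]
      · intro b _ hb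
        refine Finset.sum_eq_zero fun y _ => ?_
        rw [Pi.single_eq_of_ne hb, zero_mul, mul_zero]
      · simp
    have e2 : ∑ x, ∑ y, Q x y * (v x * (Pi.single i 1 : Fin n → K) y) = ∑ y, Q i y * v y := by
      refine Finset.sum_congr rfl fun x _ => ?_
      rw [Finset.sum_eq_single i]
      · rw [Pi.single_eq_same, mul_one]
        have : Q x i = Q i x := congrFun (congrFun hQ i) x
        rw [this]
      · intro b _ hb
        rw [Pi.single_eq_of_ne hb, mul_zero, mul_zero]
      · simp
    rw [e1, e2]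
    ring
  rw [h2] at h1
  simpa using h1

section field

variable {E : Type} [Field E] [Algebra ℂ E]

/-- the elements which are algebraic over a subalgebra form a subfield -/
def algField (A0 : Subalgebra ℂ E) : IntermediateField ℂ E where
  carrier := {e | IsAlgebraic A0 e}
  mul_mem' ha hb := ha.mul hb
  add_mem' ha hb := ha.add hb
  algebraMap_mem' c := by
    have : algebraMap ℂ E c = algebraMap A0 E (algebraMap ℂ A0 c) := rfl
    rw [Set.mem_setOf_eq, this]
    exact isAlgebraic_algebraMap _
  inv_mem' a ha := ha.inv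

lemma mem_algField {A0 : Subalgebra ℂ E} {e : E} : e ∈ algField A0 ↔ IsAlgebraic A0 e := Iff.rfl

/-- Four elements are algebraically independent if the field is algebraic over them and has
transcendence degree at least four. -/
lemma algIndep_of_gen {z : Fin 4 → E} {w : E}
    (hgen : IntermediateField.adjoin ℂ (insert w (Set.range z)) = ⊤)
    (hw : w ^ 2 ∈ Algebra.adjoin ℂ (Set.range z))
    (htr : (4 : Cardinal) ≤ Algebra.trdeg ℂ E) : AlgebraicIndependent ℂ z := by
  have halg : Algebra.IsAlgebraic (Algebra.adjoin ℂ (Set.range z)) E := by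
    constructor
    intro e
    rw [← mem_algField]
    have h1 : algField (Algebra.adjoin ℂ (Set.range z)) = ⊤ := by
      rw [eq_top_iff, ← hgen, IntermediateField.adjoin_le_iff]
      rintro y (rfl | ⟨i, rfl⟩)
      · rw [SetLike.mem_coe, mem_algField]
        have h2 : IsAlgebraic (Algebra.adjoin ℂ (Set.range z)) (y ^ 2) := by
          have : y ^ 2 = algebraMap (Algebra.adjoin ℂ (Set.range z)) E ⟨y ^ 2, hw⟩ := rfl
          rw [this]
          exact isAlgebraic_algebraMap _
        exact IsAlgebraic.of_pow (by norm_num) h2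
      · rw [SetLike.mem_coe, mem_algField]
        have : z i = algebraMap (Algebra.adjoin ℂ (Set.range z)) E
          ⟨z i, Algebra.subset_adjoin ⟨i, rfl⟩⟩ := rfl
        rw [this]
        exact isAlgebraic_algebraMap _
    rw [h1]
    trivial
  exact (Algebra.IsAlgebraic.isTranscendenceBasis_of_le_trdeg_of_finite ℂ z (by simpa using htr)).1

/-- a homomorphism from `ℂ(s₀, s₁)` to `E` and a subfield containing the images of the variables -/
lemma mem_of_vars [Algebra RatK E] [IsScalarTower ℂ RatK E] (F : IntermediateField ℂ E)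
    (hF : ∀ i, algebraMap RatK E (tvec i) ∈ F) (c : RatK) : algebraMap RatK E c ∈ F := by
  obtain ⟨n, d, hd, rfl⟩ := IsFractionRing.div_surjective (A := MvPolynomial (Fin 2) ℂ) c
  have hmem : ∀ n : MvPolynomial (Fin 2) ℂ,
      algebraMap RatK E (algebraMap (MvPolynomial (Fin 2) ℂ) RatK n) ∈ F := by
    intro n
    induction n using MvPolynomial.induction_on with
    | C a =>
      have : algebraMap RatK E (algebraMap (MvPolynomial (Fin 2) ℂ) RatK (C a)) =
          algebraMap ℂ E a := by
        rw [← MvPolynomial.algebraMap_eq,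
          ← IsScalarTower.algebraMap_apply ℂ (MvPolynomial (Fin 2) ℂ) RatK,
          ← IsScalarTower.algebraMap_apply ℂ RatK E]
      rw [this]
      exact F.algebraMap_mem a
    | add p q hp hq => rw [map_add, map_add]; exact F.add_mem hp hq
    | mul_X p i hp =>
      rw [map_mul, map_mul]
      refine F.mul_mem hp ?_
      fin_cases i
      · exact hF 1
      · exact hF 2
  rw [map_div₀]
  exact F.div_mem (hmem n) (hmem d)

end field

section main

variable {E : Type} [Field E] [Algebra ℂ E]

/-- polynomials without a constant relation -/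
lemma poly_indep {z : Fin 4 → E} (hz : AlgebraicIndependent ℂ z) (p : Fin 3 → MvPolynomial (Fin 2) ℂ)
    (h : aeval ![z 0, z 1] (p 0) + aeval ![z 0, z 1] (p 1) * z 2 +
      aeval ![z 0, z 1] (p 2) * z 3 = 0) : p = 0 := by
  let ψ : MvPolynomial (Fin 2) ℂ →ₐ[ℂ] MvPolynomial (Fin 4) ℂ := aeval ![X 0, X 1]
  have hψ : ∀ q, aeval z (ψ q) = aeval ![z 0, z 1] q := by
    have : (aeval z : MvPolynomial (Fin 4) ℂ →ₐ[ℂ] E).comp ψ = aeval ![z 0, z 1] := by
      apply MvPolynomial.algHom_ext
      intro i
      fin_cases i <;> simp [ψ]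
    exact fun q => DFunLike.congr_fun this q
  have h0 : ψ (p 0) + ψ (p 1) * X 2 + ψ (p 2) * X 3 = 0 := by
    apply hz
    rw [map_zero, map_add, map_add, map_mul, map_mul, hψ, hψ, hψ, aeval_X, aeval_X]
    exact h
  have hev : ∀ (y : Fin 4 → ℂ) q, eval y (ψ q) = eval ![y 0, y 1] q := by
    intro y
    have : (eval y).comp ψ.toRingHom = eval ![y 0, y 1] := by
      apply MvPolynomial.ringHom_ext
      · intro a
        simp [ψ]
      · intro i
        fin_cases i <;> simp [ψ]
    exact fun q => DFunLike.congr_fun this q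
  have key : ∀ (a : Fin 2 → ℂ) (u v : ℂ), eval a (p 0) + eval a (p 1) * u + eval a (p 2) * v = 0 := by
    intro a u v
    have h1 := congrArg (eval ![a 0, a 1, u, v]) h0
    rw [map_zero, map_add, map_add, map_mul, map_mul, hev, hev, hev, eval_X, eval_X] at h1
    have h2 : ![(![a 0, a 1, u, v] : Fin 4 → ℂ) 0, (![a 0, a 1, u, v] : Fin 4 → ℂ) 1] = a := by
      funext i
      fin_cases i <;> rfl
    rw [h2] at h1
    exact h1
  have k0 : ∀ a : Fin 2 → ℂ, eval a (p 0) = 0 := by
    intro a
    simpa using key a 0 0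
  funext i
  apply MvPolynomial.funext
  intro a
  have h1 := key a 1 0
  have h2 := key a 0 1
  rw [k0] at h1 h2
  rw [Pi.zero_apply, map_zero]
  fin_cases i
  · exact k0 a
  · simpa using h1
  · simpa using h2

/-- **The second fibration.** Let `E` be a field of transcendence degree (at least) four, generated
by `x₁, x₂, s₁, s₂, w` with `w² = A(1, s₁, s₂; 1, x₁, x₂)`. If the form `B(1, x₁, x₂) ⊥ ⟨-1⟩`
over `ℂ(x₁, x₂)` is isotropic, then `E` is generated by four elements. -/
theorem fourGenerated_of_second {c : Fin 3 → Fin 3 → Fin 3 → Fin 3 → ℂ} (hc : IsBisymm c)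
    (hB : (matB c tvec).det ≠ 0) {s x : Fin 3 → E} {w : E} (hs0 : s 0 = 1) (hx0 : x 0 = 1)
    (hw : s ⬝ᵥ matB c x *ᵥ s = w ^ 2)
    (hgen : IntermediateField.adjoin ℂ (insert w (Set.range ![x 1, x 2, s 1, s 2])) = ⊤)
    (htr : (4 : Cardinal) ≤ Algebra.trdeg ℂ E)
    (v : Fin 4 → RatK) (hv : v ≠ 0) (hqv : qf (vmat c) v = 0) : FourGenerated E := by
  classical
  have hchar : CharZero RatK := charZero_of_injective_algebraMap (algebraMap ℂ RatK).injective
  set z : Fin 4 → E := ![x 1, x 2, s 1, s 2] with hz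
  have hx : ∀ i, x i ∈ Algebra.adjoin ℂ (Set.range z) := by
    intro i
    fin_cases i
    · change x 0 ∈ _
      rw [hx0]; exact one_mem _
    · exact Algebra.subset_adjoin ⟨0, rfl⟩
    · exact Algebra.subset_adjoin ⟨1, rfl⟩
  have hs : ∀ i, s i ∈ Algebra.adjoin ℂ (Set.range z) := by
    intro i
    fin_cases i
    · change s 0 ∈ _
      rw [hs0]; exact one_mem _
    · exact Algebra.subset_adjoin ⟨2, rfl⟩
    · exact Algebra.subset_adjoin ⟨3, rfl⟩
  have hw2 : w ^ 2 ∈ Algebra.adjoin ℂ (Set.range z) := by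
    rw [← hw]
    refine Subalgebra.sum_mem _ fun i _ => Subalgebra.mul_mem _ (hs i) ?_
    simp only [Matrix.mulVec, dotProduct]
    refine Subalgebra.sum_mem _ fun j _ => Subalgebra.mul_mem _ ?_ (hs j)
    simp only [matB, Matrix.of_apply]
    refine Subalgebra.sum_mem _ fun a _ => Subalgebra.sum_mem _ fun b _ => ?_
    exact Subalgebra.mul_mem _ (Subalgebra.algebraMap_mem _ _) (Subalgebra.mul_mem _ (hx a) (hx b))
  have hind : AlgebraicIndependent ℂ z := algIndep_of_gen hgen hw2 htr
  by_cases hwF : w ∈ IntermediateField.adjoin ℂ (Set.range z)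
  · refine ⟨Fin 4, inferInstance, by simp, z, ?_⟩
    rw [eq_top_iff, ← hgen, IntermediateField.adjoin_le_iff]
    rintro y (rfl | ⟨i, rfl⟩)
    · exact hwF
    · exact IntermediateField.subset_adjoin ℂ _ ⟨i, rfl⟩
  -- the field `ℂ(x₁, x₂)`
  set φ : MvPolynomial (Fin 2) ℂ →ₐ[ℂ] E := aeval ![z 0, z 1] with hφ
  have hφi : Function.Injective φ := by
    rw [injective_iff_map_eq_zero]
    intro p hp
    have := poly_indep hind ![p, 0, 0] (by simpa using hp)
    exact congrFun this 0
  let ι : RatK →ₐ[ℂ] E := IsFractionRing.liftAlgHom (K := RatK) hφi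
  have hι : ∀ n, ι (algebraMap (MvPolynomial (Fin 2) ℂ) RatK n) = φ n := by
    intro n
    exact IsFractionRing.lift_algebraMap hφi n
  let _ : Algebra RatK E := ι.toRingHom.toAlgebra
  have hιa : ∀ c : RatK, algebraMap RatK E c = ι c := fun c => rfl
  have : IsScalarTower ℂ RatK E := IsScalarTower.of_algebraMap_eq fun c => by
    rw [hιa]
    exact (ι.commutes c).symm
  have htx : ∀ i, algebraMap RatK E (tvec i) = x i := by
    intro i
    fin_cases i
    · change algebraMap RatK E 1 = x 0
      rw [map_one, hx0]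
    · have : tvec 1 = algebraMap (MvPolynomial (Fin 2) ℂ) RatK (X 0) := rfl
      change algebraMap RatK E (tvec 1) = x 1
      rw [hιa, this, hι, hφ, aeval_X]
      rfl
    · have : tvec 2 = algebraMap (MvPolynomial (Fin 2) ℂ) RatK (X 1) := rfl
      change algebraMap RatK E (tvec 2) = x 2
      rw [hιa, this, hι, hφ, aeval_X]
      rfl
  set η : Fin 4 → E := ![1, s 1, s 2, w] with hη
  -- coefficients lie in the field generated by the four elements
  have hKz : ∀ c : RatK, algebraMap RatK E c ∈ IntermediateField.adjoin ℂ (Set.range z) := by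
    refine mem_of_vars _ fun i => ?_
    rw [htx]
    exact IntermediateField.algebra_adjoin_le_adjoin ℂ _ (hx i)
  have hLI : ∀ c : Fin 4 → RatK, ∑ i, algebraMap RatK E (c i) * η i = 0 → c = 0 := by
    intro c hc
    rw [Fin.sum_univ_four] at hc
    simp only [hη, Matrix.cons_val_zero, Matrix.cons_val_one, Matrix.cons_val] at hc
    have h3 : c 3 = 0 := by
      by_contra h3
      apply hwF
      have h3' : algebraMap RatK E (c 3) ≠ 0 := by simpa using h3
      have h4 : w = -(algebraMap RatK E (c 0) * 1 + algebraMap RatK E (c 1) * s 1 +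
          algebraMap RatK E (c 2) * s 2) / algebraMap RatK E (c 3) := by
        rw [eq_div_iff h3']
        linear_combination hc
      rw [h4]
      have hsF : ∀ i, s i ∈ IntermediateField.adjoin ℂ (Set.range z) := fun i =>
        IntermediateField.algebra_adjoin_le_adjoin ℂ _ (hs i)
      refine div_mem (neg_mem (add_mem (add_mem (mul_mem (hKz _) (one_mem _))
        (mul_mem (hKz _) (hsF 1))) (mul_mem (hKz _) (hsF 2)))) (hKz _)
    rw [h3, map_zero, zero_mul, add_zero] at hc
    obtain ⟨b, hb⟩ := IsLocalization.exist_integer_multiples_of_finite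
      (nonZeroDivisors (MvPolynomial (Fin 2) ℂ)) (fun i : Fin 3 => c i.castSucc)
    choose p hp using hb
    have hb0 : algebraMap (MvPolynomial (Fin 2) ℂ) RatK b ≠ 0 := by
      simp
    have hp' : ∀ i, algebraMap (MvPolynomial (Fin 2) ℂ) RatK (p i) =
        algebraMap (MvPolynomial (Fin 2) ℂ) RatK b * c i.castSucc := by
      intro i
      rw [hp i, Algebra.smul_def]
    have hpE : ∀ i, φ (p i) = algebraMap RatK E (algebraMap (MvPolynomial (Fin 2) ℂ) RatK b) *
        algebraMap RatK E (c i.castSucc) := by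
      intro i
      rw [← hι, ← hιa, hp', map_mul]
    have hp0 := poly_indep hind p (by
      have e0 := hpE 0
      have e1 := hpE 1
      have e2 := hpE 2
      change φ (p 0) + φ (p 1) * s 1 + φ (p 2) * s 2 = 0
      rw [e0, e1, e2]
      change _ * algebraMap RatK E (c 0) + _ * algebraMap RatK E (c 1) * s 1 +
        _ * algebraMap RatK E (c 2) * s 2 = 0
      linear_combination algebraMap RatK E (algebraMap (MvPolynomial (Fin 2) ℂ) RatK b) * hc)
    have hc0 : ∀ i : Fin 3, c i.castSucc = 0 := by
      intro i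
      have h5 := hp' i
      rw [hp0, Pi.zero_apply, map_zero] at h5
      exact (mul_eq_zero.mp h5.symm).resolve_left hb0
    funext i
    refine Fin.lastCases ?_ (fun i => ?_) i
    · exact h3
    · exact hc0 i
  have H : QuadricPoint RatK E tvec (vmat c) η :=
    { t0 := rfl
      hK := mem_of_vars
      hE := by
        intro F hF1 hF2
        rw [eq_top_iff, ← hgen, IntermediateField.adjoin_le_iff]
        rintro y (rfl | ⟨i, rfl⟩)
        · exact hF2 3
        · fin_cases i
          · change x 1 ∈ F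
            rw [← htx]; exact hF1 _
          · change x 2 ∈ F
            rw [← htx]; exact hF1 _
          · exact hF2 1
          · exact hF2 2
      nd := fun v hv => pf_symm_zero (vmat_symm hc) (by rw [det_vmat]; exact neg_ne_zero.mpr hB) v hv
      η0 := rfl
      LI := hLI
      hq := by
        rw [qf_vmat]
        have h1 : (fun i => algebraMap RatK E (tvec i)) = x := funext htx
        have h2 : (![η 0, η 1, η 2] : Fin 3 → E) = s := by
          funext i
          fin_cases i
          · exact hs0.symm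
          · rfl
          · rfl
        rw [h1, h2, hw]
        exact sub_self _ }
  exact H.isotropic v hv hqv

end main

end Vale.Agent.P287.H139
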