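import Vale.Agent.P287.H139.Verra

/-!
Cubic fourfolds containing a plane whose quadratic form is similar to the first quadric surface
fibration `A(s; x) - w²` of a double cover of `ℙ² × ℙ²`: they are rational if the second fibration
has a point of odd degree.
-/

namespace Vale.Agent.P287.H139

open MvPolynomial Matrix Vale.Agent.P287 Vale.Agent.P287.Theta Vale.Agent.P287.H925

/-- The matrix of the form `x ↦ x A(1, s₁, s₂) x - w²` over `ℂ(s₁, s₂)`. -/
noncomputable def amat (c : Fin 3 → Fin 3 → Fin 3 → Fin 3 → ℂ) : Matrix (Fin 4) (Fin 4) RatK :=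
  !![matA c tvec 0 0, matA c tvec 0 1, matA c tvec 0 2, 0;
     matA c tvec 1 0, matA c tvec 1 1, matA c tvec 1 2, 0;
     matA c tvec 2 0, matA c tvec 2 1, matA c tvec 2 2, 0;
     0, 0, 0, -1]

/-- The value of the form. -/
lemma qf_amat (c : Fin 3 → Fin 3 → Fin 3 → Fin 3 → ℂ) {A : Type*} [CommRing A] [Algebra ℂ A]
    [Algebra RatK A] [IsScalarTower ℂ RatK A] (v : Fin 4 → A) :
    qf (amat c) v = ![v 0, v 1, v 2] ⬝ᵥ matA c (fun i => algebraMap RatK A (tvec i)) *ᵥ
      ![v 0, v 1, v 2] - v 3 ^ 2 := by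
  have h : ∀ i j, matA c (fun i => algebraMap RatK A (tvec i)) i j =
      algebraMap RatK A (matA c tvec i j) := by
    intro i j
    have := map_matA (IsScalarTower.toAlgHom ℂ RatK A) c tvec
    exact (congrFun (congrFun this i) j).symm
  simp only [qf, Fin.sum_univ_four, dotProduct, Matrix.mulVec, Fin.sum_univ_three, h]
  simp [amat]
  ring

/-- A similarity over an infinite field persists over every algebra. -/
lemma similar_base {K : Type*} [Field K] [Infinite K] {n m : ℕ} {Q : Matrix (Fin m) (Fin m) K}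
    {q : Matrix (Fin n) (Fin n) K} {P : Matrix (Fin m) (Fin n) K} {l : K}
    (h : ∀ v : Fin n → K, qf Q (act P v) = l * qf q v) {A : Type*} [CommRing A] [Algebra K A]
    (v : Fin n → A) : qf Q (act P v) = algebraMap K A l * qf q v := by
  set D : MvPolynomial (Fin n) K := qf Q (act P X) - algebraMap K _ l * qf q X with hD
  have key : ∀ {B : Type _} [CommRing B] [Algebra K B] (w : Fin n → B),
      aeval w D = qf Q (act P w) - algebraMap K B l * qf q w := by
    intro B _ _ w
    rw [hD, map_sub, map_mul, map_qf, map_qf, map_act, AlgHom.commutes]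
    simp
  have key' : ∀ (w : Fin n → K), aeval w D = qf Q (act P w) - algebraMap K K l * qf q w := by
    intro w
    rw [hD, map_sub, map_mul, map_qf, map_qf, map_act, AlgHom.commutes]
    simp
  have h0 : ∀ w : Fin n → K, aeval w D = 0 := by
    intro w
    rw [key', h]
    simp
  have h1 := aeval_eq_zero_of_forall D h0 v
  rw [key] at h1
  exact sub_eq_zero.mp h1

theorem fourGenerated_of_verra {E : Type} [Field E] [Algebra ℂ E] [Algebra RatK E]
    [IsScalarTower ℂ RatK E] {q : Matrix (Fin 4) (Fin 4) RatK} {η : Fin 4 → E}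
    (H : QuadricPoint RatK E tvec q η) (htr : (4 : Cardinal) ≤ Algebra.trdeg ℂ E)
    {c : Fin 3 → Fin 3 → Fin 3 → Fin 3 → ℂ} (hc : IsBisymm c) (hB : (matB c tvec).det ≠ 0)
    {P P' : Matrix (Fin 4) (Fin 4) RatK} (hP : P' * P = 1) {l : RatK}
    (hsim : ∀ v : Fin 4 → RatK, qf (amat c) (act P v) = l * qf q v)
    (v : Fin 4 → RatK) (hv : v ≠ 0) (hqv : qf (vmat c) v = 0) : FourGenerated E := by
  have hchar : CharZero RatK := charZero_of_injective_algebraMap (algebraMap ℂ RatK).injective
  set y : Fin 4 → E := act P η with hy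
  have hy0 : y 0 ≠ 0 := by
    intro h0
    have h1 := H.LI (fun j => P 0 j) h0
    have h2 : P * P' = 1 := mul_eq_one_comm.mp hP
    have h3 := congrFun (congrFun h2 0) 0
    rw [Matrix.mul_apply] at h3
    simp only [fun j => congrFun h1 j] at h3
    simp at h3
  have hqy : qf (amat c) y = 0 := by
    rw [hy, similar_base hsim, H.hq, mul_zero]
  have hη : act P' y = η := by
    rw [hy, ← act_mul, hP, act_one]
  set s : Fin 3 → E := fun i => algebraMap RatK E (tvec i) with hs
  set x : Fin 3 → E := fun i => y i.castSucc / y 0 with hx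
  set w : E := y 3 / y 0 with hw
  have hwx : s ⬝ᵥ matB c x *ᵥ s = w ^ 2 := by
    rw [← matA_matB]
    rw [qf_amat] at hqy
    have h1 : x = (y 0)⁻¹ • ![y 0, y 1, y 2] := by
      funext i
      simp only [hx, Pi.smul_apply, smul_eq_mul, div_eq_inv_mul]
      fin_cases i <;> rfl
    rw [h1, Matrix.mulVec_smul, dotProduct_smul, smul_dotProduct, sub_eq_zero.mp hqy, hw]
    simp only [smul_eq_mul]
    field_simp
  refine fourGenerated_of_second hc hB (s := s) (x := x) (w := w) ?_ ?_ hwx ?_ htr v hv hqv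
  · simp only [hs]
    rw [H.t0, map_one]
  · simp only [hx]
    exact div_self hy0
  · set F := IntermediateField.adjoin ℂ (insert w (Set.range ![x 1, x 2, s 1, s 2])) with hF
    have hwF : w ∈ F := IntermediateField.subset_adjoin ℂ _ (Set.mem_insert _ _)
    have hzF : ∀ i, (![x 1, x 2, s 1, s 2] : Fin 4 → E) i ∈ F := fun i =>
      IntermediateField.subset_adjoin ℂ _ (Set.mem_insert_of_mem _ ⟨i, rfl⟩)
    have hKF : ∀ c : RatK, algebraMap RatK E c ∈ F := by
      apply H.hK F
      intro i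
      fin_cases i
      · change algebraMap RatK E (tvec 0) ∈ F
        rw [H.t0, map_one]; exact F.one_mem
      · exact hzF 2
      · exact hzF 3
    refine H.eq_top F hKF (y 0)⁻¹ (inv_ne_zero hy0) fun i => ?_
    have h1 : (y 0)⁻¹ * η i = act P' ((y 0)⁻¹ • y) i := by
      rw [act_smul, hη, Pi.smul_apply, smul_eq_mul]
    rw [h1]
    refine F.sum_mem fun j _ => F.mul_mem (hKF _) ?_
    rw [Pi.smul_apply, smul_eq_mul, ← div_eq_inv_mul]
    fin_cases j
    · change y 0 / y 0 ∈ F
      rw [div_self hy0]; exact F.one_mem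
    · exact hzF 0
    · exact hzF 1
    · exact hwF

/-- **Verra fourfolds, isotropic second fibration.** -/
theorem rational_of_verra_isotropic (B : Fin 3 → Matrix (Fin 6) (Fin 6) ℂ)
    (hp : Prime (chart (cubic B)))
    (nd : ∀ v : Fin 4 → RatK, (∀ w, pf (qmat B) v w = 0) → v = 0)
    {c : Fin 3 → Fin 3 → Fin 3 → Fin 3 → ℂ} (hc : IsBisymm c)
    (hsm : SmoothP (matA c (X : Fin 3 → P3)).det)
    {P P' : Matrix (Fin 4) (Fin 4) RatK} (hP : P' * P = 1) {l : RatK}
    (hsim : ∀ v : Fin 4 → RatK, qf (amat c) (act P v) = l * qf (qmat B) v)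
    (v : Fin 4 → RatK) (hv : v ≠ 0) (hqv : qf (vmat c) v = 0) :
    Nonempty (FractionRing (MvPolynomial (Fin 5) ℂ ⧸ Ideal.span {chart (cubic B)}) ≃ₐ[ℂ]
      FractionRing (MvPolynomial (Fin 4) ℂ)) :=
  rational_of_fourGenerated_trdeg B hp nd fun _E _ _ _ _ _η H _ htr =>
    fourGenerated_of_verra H htr hc (det_matB_tvec hc hsm) hP hsim v hv hqv

/-- **Verra fourfolds, second fibration with a point of odd degree** (polynomial form): a
polynomial `p` of odd degree divides the value of the second form at a polynomial vector `g`, and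
`p` and `g` have no common factor. -/
theorem rational_of_verra_odd (B : Fin 3 → Matrix (Fin 6) (Fin 6) ℂ)
    (hp : Prime (chart (cubic B)))
    (nd : ∀ v : Fin 4 → RatK, (∀ w, pf (qmat B) v w = 0) → v = 0)
    {c : Fin 3 → Fin 3 → Fin 3 → Fin 3 → ℂ} (hc : IsBisymm c)
    (hsm : SmoothP (matA c (X : Fin 3 → P3)).det)
    {P P' : Matrix (Fin 4) (Fin 4) RatK} (hP : P' * P = 1) {l : RatK}
    (hsim : ∀ v : Fin 4 → RatK, qf (amat c) (act P v) = l * qf (qmat B) v)
    (p : Polynomial RatK) (hpo : Odd p.natDegree) (g : Fin 4 → Polynomial RatK)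
    (hpg : p ∣ qf (vmat c) g) (hcop : ∀ r : Polynomial RatK, Irreducible r → r ∣ p → ∃ i, ¬ r ∣ g i) :
    Nonempty (FractionRing (MvPolynomial (Fin 5) ℂ ⧸ Ideal.span {chart (cubic B)}) ≃ₐ[ℂ]
      FractionRing (MvPolynomial (Fin 4) ℂ)) := by
  have h : ∃ v : Fin 4 → RatK, v ≠ 0 ∧ qf (vmat c) v = 0 := by
    by_contra hcon
    push Not at hcon
    obtain ⟨r, hr, hrp, hrg⟩ := springer_poly (vmat c) (fun v hv => by
      by_contra hv0
      exact hcon v hv0 hv) p hpo g hpg
    obtain ⟨i, hi⟩ := hcop r hr hrp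
    exact hi (hrg i)
  obtain ⟨v, hv, hqv⟩ := h
  exact rational_of_verra_isotropic B hp nd hc hsm hP hsim v hv hqv

/-- **Verra fourfolds, second fibration isotropic over an algebra of odd dimension.** -/
theorem rational_of_verra_algebra (B : Fin 3 → Matrix (Fin 6) (Fin 6) ℂ)
    (hp : Prime (chart (cubic B)))
    (nd : ∀ v : Fin 4 → RatK, (∀ w, pf (qmat B) v w = 0) → v = 0)
    {c : Fin 3 → Fin 3 → Fin 3 → Fin 3 → ℂ} (hc : IsBisymm c)
    (hsm : SmoothP (matA c (X : Fin 3 → P3)).det)
    {P P' : Matrix (Fin 4) (Fin 4) RatK} (hP : P' * P = 1) {l : RatK}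
    (hsim : ∀ v : Fin 4 → RatK, qf (amat c) (act P v) = l * qf (qmat B) v)
    {R : Type*} [CommRing R] [Algebra RatK R] [FiniteDimensional RatK R]
    (hodd : Odd (Module.finrank RatK R)) (w : Fin 4 → R) (hw : Ideal.span (Set.range w) = ⊤)
    (hqw : qf (vmat c) w = 0) :
    Nonempty (FractionRing (MvPolynomial (Fin 5) ℂ ⧸ Ideal.span {chart (cubic B)}) ≃ₐ[ℂ]
      FractionRing (MvPolynomial (Fin 4) ℂ)) := by
  have hchar : CharZero RatK := charZero_of_injective_algebraMap (algebraMap ℂ RatK).injective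
  obtain ⟨v, hv, hqv⟩ := springer_algebra hodd (vmat c) w hw hqw
  exact rational_of_verra_isotropic B hp nd hc hsm hP hsim v hv hqv

end Vale.Agent.P287.H139
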